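import Vale.Agent.P223.H620.ImN

/-! The final theorem: conformal immersions of the universal covering. -/

namespace Vale.Agent.P223.H620.Im

open scoped ENNReal
open MeasureTheory Set

/-- the statement -/
def SpecFin : Prop := ∀ n : ℕ, 3 ≤ n → ∃ A : ℝ, 0 < A ∧
    ∀ (M : Type) [TopologicalSpace M] [CompactSpace M] [T2Space M] [ConnectedSpace M]
      [MeasurableSpace M] [BorelSpace M] (c : M → J.Ch n M), J.Atl c →
      ∀ (g : M → J.Mtx n) (μ : Measure M), J.Met c g → J.Vol c g μ →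
      (J.Lcf c g → J.sv c ≤ ENNReal.ofReal A * J.L n μ (J.sn c g)) ∧
      (∀ (g₁ : M → J.Mtx n) (K : ℝ), J.Met c g₁ → J.Lcf c g₁ → 1 ≤ K → J.Bil c g₁ g K →
        J.sv c ≤ ENNReal.ofReal (A * K ^ ((n : ℝ) ^ 2 / 2)) *
          J.L n μ (fun p => J.sn c g p + max 0 (J.scal (g₁ p) (c p p)))) ∧
      ((∃ g₀, J.Met c g₀ ∧ J.CovSpin c g₀) →
        (J.CovPos c g → J.sv c = 0) ∧
        ∀ (b : M → ℝ) (ε : ℝ), Continuous b → (∀ p, 0 ≤ b p) → 0 < ε → ε ≤ 1 →
          (J.UCImm c g b → J.Ineq c g μ (A * ε ^ (-(n : ℝ) / 2)) fun p => ε * b p) ∧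
          ∀ r : M → ℝ, Continuous r → (∀ p, 0 < r p) → J.UCImmAt c g b r →
            J.Ineq c g μ (A * ε ^ (-(n : ℝ) / 2)) fun p => ε * (b p + 1 / r p ^ 2))

theorem ineq_mono {n : ℕ} {M : Type} [TopologicalSpace M] [ConnectedSpace M] [MeasurableSpace M]
    {c : M → J.Ch n M} {g : M → J.Mtx n} {μ : Measure M} {a a' : ℝ} {h : M → ℝ} (haa : a ≤ a')
    (hh : ∀ p, 0 ≤ h p) (h1 : J.Ineq c g μ a h) : J.Ineq c g μ a' h := by
  refine ⟨h1.1.trans ?_, fun s κ f μ' hs hsκ hf hμ' => (h1.2 s κ f μ' hs hsκ hf hμ').trans ?_⟩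
  · gcongr
  · have hκ : 0 ≤ κ / s := by
      obtain ⟨p⟩ : Nonempty M := inferInstance
      have h3 := (hsκ p).1
      have h4 := hh p
      exact div_nonneg (by linarith [(hsκ p).2]) hs.le
    have : 0 ≤ (κ / s) ^ ((n : ℝ) / 2) := Real.rpow_nonneg hκ _
    gcongr

theorem specFin_of (hS : SpecCS) : SpecFin := by
  intro n hn
  have hn3 : (3 : ℝ) ≤ n := by exact_mod_cast hn
  obtain ⟨A₁, hA₁, h1⟩ := H391.finalW n hn
  obtain ⟨A₂, hA₂, h2⟩ := H440.final n hn
  obtain ⟨y, hy, hy1, hCS⟩ := hS n hn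
  set A : ℝ := max A₂ (max (A₁ * y ^ (-(n : ℝ) / 2)) (A₂ * (2 / y) ^ ((n : ℝ) / 2))) with hA
  have hA0 : 0 < A := lt_max_of_lt_left hA₂
  have hA2 : A₂ ≤ A := le_max_left _ _
  have hA3 : A₁ * y ^ (-(n : ℝ) / 2) ≤ A := (le_max_left _ _).trans (le_max_right _ _)
  have hA4 : A₂ * (2 / y) ^ ((n : ℝ) / 2) ≤ A := (le_max_right _ _).trans (le_max_right _ _)
  refine ⟨A, hA0, ?_⟩
  intro M _ _ _ _ _ _ c hc g μ hg hμ
  obtain ⟨h3, h4, h5⟩ := h2 M c hc g μ hg hμ
  have hsc := H440.cont_scal hc (by omega) hg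
  refine ⟨fun hL => (h3 hL).trans (by gcongr), fun g₁ K hg₁ hL hK hb =>
    (h4 g₁ K hg₁ hL hK hb).trans ?_, fun hsp => ⟨(h5 hsp).1, ?_⟩⟩
  · have : 0 ≤ K ^ ((n : ℝ) ^ 2 / 2) := Real.rpow_nonneg (by linarith) _
    gcongr
  intro b ε hb hb0 hε hε1
  have hεp : 0 ≤ ε ^ (-(n : ℝ) / 2) := Real.rpow_nonneg hε.le _
  refine ⟨fun hI => ?_, fun r hr hr0 hI => ?_⟩
  · set β : M → ℝ := fun p => max 0 (ε * b p - max 0 (J.scal (g p) (c p p))) with hβ
    have hβc : Continuous β := continuous_const.max ((continuous_const.mul hb).sub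
      (continuous_const.max hsc))
    have hW := uc_sobW hCS hc hg hsc hb hb0 hε hε1 hI
    have h6 := ((h5 hsp).2 2 (y * ε) β one_le_two (mul_pos hy hε) hβc (fun p => le_max_left _ _)
      hW).1
    have e1 : (fun p => J.sn c g p + β p) =
        fun p => max 0 (ε * b p - J.scal (g p) (c p p)) := by
      funext p
      have hp : 0 ≤ ε * b p := mul_nonneg hε.le (hb0 p)
      change max 0 (-J.scal (g p) (c p p)) + max 0 (ε * b p - max 0 (J.scal (g p) (c p p))) = _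
      rcases le_total 0 (J.scal (g p) (c p p)) with h | h
      · rw [max_eq_left (by linarith : -J.scal (g p) (c p p) ≤ 0), max_eq_right h, zero_add]
      · rw [max_eq_right (by linarith : 0 ≤ -J.scal (g p) (c p p)), max_eq_left h, sub_zero,
          max_eq_right hp, max_eq_right (by linarith)]
        ring
    rw [e1] at h6
    refine H391.ineq_of hn hc hg hμ (by positivity) (fun p => mul_nonneg hε.le (hb0 p))
      (h6.trans (mul_le_mul_left (ENNReal.ofReal_le_ofReal ?_) _))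
    have e2 : (2 / (y * ε)) ^ ((n : ℝ) / 2) = (2 / y) ^ ((n : ℝ) / 2) * ε ^ (-(n : ℝ) / 2) := by
      rw [neg_div, Real.rpow_neg hε.le, ← Real.inv_rpow hε.le,
        ← Real.mul_rpow (by positivity) (by positivity)]
      congr 1
      field_simp
    rw [e2, ← mul_assoc]
    gcongr
  · have hU := uc_sobAt hCS hc hg hb hb0 hI
    have h6 := (((h1 M c hc g μ hg hμ g 1 hg le_rfl (fun a x _ v => by simp)).1 hsp r ε hr0 hε
      hε1).1 b 1 y hr hb hb0 le_rfl hy hy1 hU)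
    refine ineq_mono ?_ (fun p => ?_) h6
    · have e2 : (1 / (y * ε)) ^ ((n : ℝ) / 2) = y ^ (-(n : ℝ) / 2) * ε ^ (-(n : ℝ) / 2) := by
        rw [← Real.mul_rpow hy.le hε.le, neg_div, Real.rpow_neg (by positivity), one_div,
          Real.inv_rpow (by positivity)]
      rw [Real.one_rpow, mul_one, e2, ← mul_assoc]
      gcongr
    · have := hr0 p
      have := hb0 p
      positivity

end Vale.Agent.P223.H620.Im
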