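import Vale.Agent.P223.H620.ImM7
import Vale.Agent.P223.H620.ImFin

/-! The final theorem. -/

namespace Vale.Agent.P223.H620.Im

theorem specFin : SpecFin := specFin_of (specCS_of greenJ specMS)

end Vale.Agent.P223.H620.Im
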