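import Vale.Agent.P223.H620.ImB
import Vale.Agent.P223.H391.FinW
import Vale.Agent.P223.H440.Fin4

/-! From the inequality on domains of the universal covering to the simplicial volume. -/

namespace Vale.Agent.P223.H620.Im

open scoped ContDiff Topology ENNReal NNReal
open MeasureTheory Set Vale.Agent.P223.H566 Vale.Agent.P223.H566.NV

theorem t2_of_cov {M X : Type} [TopologicalSpace M] [TopologicalSpace X] [T2Space M]
    {f : X → M} (hf : IsCoveringMap f) : T2Space X := by
  refine ⟨fun x y hxy => ?_⟩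
  by_cases h : f x = f y
  · exact hf.isSeparatedMap x y h hxy
  · obtain ⟨U, V, hU, hV, h1, h2, h3⟩ := t2_separation h
    exact ⟨f ⁻¹' U, f ⁻¹' V, hU.preimage hf.continuous, hV.preimage hf.continuous, h1, h2,
      h3.preimage f⟩

/-- the conclusion of `SpecCS` -/
def CSy (n : ℕ) (y : ℝ) : Prop := ∀ (X : Type) [TopologicalSpace X]
  [T2Space X] [MeasurableSpace X] [BorelSpace X] (μ : Measure X) (c : X → J.Ch n X)
  (g : X → J.Mtx n) (b u : X → ℝ) (S : Set X), J.Atl c → J.Met c g → J.Vol c g μ →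
  Continuous b → (∀ q, 0 ≤ b q) → CG c g b S → J.Sm c u → HasCompactSupport u →
  tsupport u ⊆ S →
  y * (∫ q, |u q| ^ (2 * (n : ℝ) / (n - 2)) ∂μ) ^ (((n : ℝ) - 2) / n) ≤
    ∫ q, (J.gsq (g q) (fun x => u ((c q).symm x)) (c q q) +
      (max 0 (J.scal (g q) (c q q)) + b q) * u q ^ 2) ∂μ

section
variable {n : ℕ} {M : Type} [TopologicalSpace M] [T2Space M] {c : M → J.Ch n M}
  {g : M → J.Mtx n} {b r : M → ℝ} {y : ℝ}

theorem uc_sobAt (hCS : CSy n y) (hc : J.Atl c) (hg : J.Met c g) (hb : Continuous b)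
    (hb0 : ∀ p, 0 ≤ b p) (h : J.UCImmAt c g b r) :
    J.UCSobAt c g (fun p => 1 * max 0 (J.scal (g p) (c p p)) + b p) y r := by
  intro X tX f c' hsc hf x mX bX μ hμ u hu huc hs
  obtain ⟨s, hs, hus⟩ := hs
  have := t2_of_cov hf.cov
  have hc' := H441.Par.atl_of_cov hc hf
  have hg' := H441.Par.met_of_cov hg hf
  have h1 := h X tX f c' hsc hf x
  have h2 : tsupport u ⊆ J.Bal c' (fun q => g (f q)) x (r (f x)) := by
    have h3 : IsClosed {z | ∀ w, J.Lip1 c' (fun q => g (f q)) w → |w x - w z| ≤ s} := by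
      have e : {z | ∀ w, J.Lip1 c' (fun q => g (f q)) w → |w x - w z| ≤ s} =
          ⋂ (w) (_ : J.Lip1 c' (fun q => g (f q)) w), {z | |w x - w z| ≤ s} := by
        ext z
        simp
      rw [e]
      exact isClosed_iInter fun w => isClosed_iInter fun hw =>
        isClosed_le (continuous_const.sub (JB.sm_cont hc' hw.1)).abs continuous_const
    have h4 : tsupport u ⊆ {z | ∀ w, J.Lip1 c' (fun q => g (f q)) w → |w x - w z| ≤ s} :=
      closure_minimal (fun z hz => hus z hz) h3
    exact fun z hz => ⟨s, hs, h4 hz⟩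
  have h3 := hCS X μ c' (fun q => g (f q)) (fun q => b (f q)) u _ hc' hg' hμ
    (hb.comp hf.cov.continuous) (fun q => hb0 _)
    (cg_of hc' (isOpen_Bal hc' hg' x _) huc.isCompact h2 h1) hu huc subset_rfl
  refine h3.trans (le_of_eq (integral_congr_ae (ae_of_all _ fun q => ?_)))
  simp only [one_mul, (hf.eq q q (hf.mem q)).2]

theorem uc_sobW (hCS : CSy n y) (hc : J.Atl c) (hg : J.Met c g)
    (hsc : Continuous fun p => J.scal (g p) (c p p)) (hb : Continuous b)
    (hb0 : ∀ p, 0 ≤ b p) {ε : ℝ} (hε : 0 < ε) (hε1 : ε ≤ 1) (h : J.UCImm c g b) :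
    J.UCSobW c g (fun p => 2 * max 0 (J.scal (g p) (c p p)) +
      max 0 (ε * b p - max 0 (J.scal (g p) (c p p)))) (y * ε) := by
  intro X tX f c' hcon hf mX bX μ hμ u hu huc
  have := t2_of_cov hf.cov
  have hc' := H441.Par.atl_of_cov hc hf
  have hg' := H441.Par.met_of_cov hg hf
  have hlf := JB.locFin hc' hg' hμ
  have h3 := hCS X μ c' (fun q => g (f q)) (fun q => b (f q)) u _ hc' hg' hμ
    (hb.comp hf.cov.continuous) (fun q => hb0 _)
    (cg_of hc' isOpen_univ huc.isCompact (subset_univ _) (h X tX f c' hcon hf)) hu huc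
    subset_rfl
  have h4 := mul_le_mul_of_nonneg_left h3 hε.le
  rw [← mul_assoc, mul_comm ε y, ← integral_const_mul] at h4
  refine h4.trans ?_
  have hgs : ∀ q, J.gsq (g (f q)) (fun x => u ((c' q).symm x)) (c' q q) =
      NV.grd c' (fun q => g (f q)) u q ^ 2 := fun q =>
    H391.W.gsq_eq (g := fun q => g (f q)) hc' hg' u q
  have hgz : ∀ q, q ∉ tsupport u → NV.grd c' (fun q => g (f q)) u q = 0 := fun q hq => by
    have h2 := H391.gsq_out (g := fun q => g (f q)) hc' hq
    rw [H391.W.gsq_eq (g := fun q => g (f q)) hc' hg'] at h2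
    exact pow_eq_zero_iff two_ne_zero |>.1 h2
  have hscX : ∀ q, J.scal (g (f q)) (c' q q) = J.scal (g (f q)) (c (f q) (f q)) := fun q => by
    rw [(hf.eq q q (hf.mem q)).2]
  refine integral_mono_of_nonneg (ae_of_all _ fun q => ?_) ?_ (ae_of_all _ fun q => ?_)
  · have h5 := H391.gsq_nonneg hc' hg' u q
    have h6 := le_max_left 0 (J.scal (g (f q)) (c' q q))
    have h7 := hb0 (f q)
    change 0 ≤ ε * (J.gsq (g (f q)) (fun x => u ((c' q).symm x)) (c' q q) +
      (max 0 (J.scal (g (f q)) (c' q q)) + b (f q)) * u q ^ 2)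
    positivity
  · have hcf := hf.cov.continuous
    have hS : Continuous fun q => max 0 (J.scal (g (f q)) (c (f q) (f q))) :=
      continuous_const.max (hsc.comp hcf)
    have hW : Continuous fun q => NV.grd c' (fun q => g (f q)) u q ^ 2 +
        (2 * max 0 (J.scal (g (f q)) (c (f q) (f q))) +
          max 0 (ε * b (f q) - max 0 (J.scal (g (f q)) (c (f q) (f q))))) * u q ^ 2 :=
      ((JB.cont_grd hc' hg' hu).pow 2).add (((continuous_const.mul hS).add
        (continuous_const.max ((continuous_const.mul (hb.comp hcf)).sub hS))).mul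
        ((JB.sm_cont hc' hu).pow 2))
    simp only [hgs]
    exact hW.integrable_of_hasCompactSupport
      (HasCompactSupport.intro huc.isCompact fun q hq => by
        rw [hgz q hq, image_eq_zero_of_notMem_tsupport hq]
        ring)
  · have h5 := H391.gsq_nonneg hc' hg' u q
    have h7 := hb0 (f q)
    simp only [hscX]
    set S := max 0 (J.scal (g (f q)) (c (f q) (f q))) with hS
    have h6 : 0 ≤ S := le_max_left _ _
    have h8 := le_max_right 0 (ε * b (f q) - S)
    have h9 : ε * S ≤ S := mul_le_of_le_one_left h6 hε1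
    have h10 := mul_le_of_le_one_left h5 hε1
    have h11 : ε * (S + b (f q)) ≤ 2 * S + max 0 (ε * b (f q) - S) := by
      rw [mul_add]
      linarith
    have h12 := mul_le_mul_of_nonneg_right h11 (sq_nonneg (u q))
    rw [mul_add, ← mul_assoc]
    exact add_le_add h10 h12

end

end Vale.Agent.P223.H620.Im
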